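import Mathlib

/-! P254, bodies inside a parallelepiped: variance of a log-concave density on an interval
(crossing argument against a truncated exponential). -/

open MeasureTheory Set

namespace Vale.Agent.P254.Par

namespace CrossH

theorem integrable_mul {F : ℝ → ℝ} {a b : ℝ} (hs : ∀ t, F t ≠ 0 → t ∈ Icc a b)
    (hi : Integrable F) (φ : ℝ → ℝ) (hφ : Continuous φ) : Integrable (fun t => φ t * F t) := by
  obtain ⟨C, hC⟩ := (isCompact_Icc (a := a) (b := b)).exists_bound_of_continuousOn
    (f := φ) hφ.continuousOn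
  refine (hi.norm.const_mul C).mono' (hφ.aestronglyMeasurable.mul hi.aestronglyMeasurable)
    (Filter.Eventually.of_forall fun t => ?_)
  by_cases h : F t = 0
  · simp [h]
  · rw [norm_mul]
    exact mul_le_mul_of_nonneg_right (hC t (hs t h)) (norm_nonneg _)

theorem integral_ind (φ : ℝ → ℝ) :
    (∫ t, (Icc (0 : ℝ) 1).indicator φ t) = ∫ t in (0 : ℝ)..1, φ t := by
  rw [integral_indicator measurableSet_Icc, intervalIntegral.integral_of_le zero_le_one,
    integral_Icc_eq_integral_Ioc]

/-- a nonnegative integrable function with positive integral, weighted by a function positive off one point -/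
theorem weight_pos {F w : ℝ → ℝ} {x : ℝ} (h0 : ∀ t, 0 ≤ F t) (hw : ∀ t, F t ≠ 0 → t ≠ x → 0 < w t)
    (hw0 : ∀ t, F t ≠ 0 → 0 ≤ w t)
    (hi : Integrable (fun t => w t * F t)) (hpos : 0 < ∫ t, F t) : 0 < ∫ t, w t * F t := by
  have hnn : ∀ t, 0 ≤ w t * F t := fun t => by
    by_cases h : F t = 0
    · simp [h]
    · exact mul_nonneg (hw0 t h) (h0 t)
  refine lt_of_le_of_ne (integral_nonneg hnn) fun h => ?_
  have h1 := (integral_eq_zero_iff_of_nonneg hnn hi).1 h.symm
  have h2 : ∀ᵐ t : ℝ, t ≠ x := by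
    have : (volume : Measure ℝ) {x} = 0 := by simp
    exact compl_mem_ae_iff.2 this
  have h3 : F =ᵐ[volume] 0 := by
    filter_upwards [h1, h2] with t ht htx
    by_contra hF
    have := mul_pos (hw t hF htx) (lt_of_le_of_ne (h0 t) (Ne.symm hF))
    simp only [Pi.zero_apply] at ht
    linarith
  rw [integral_congr_ae h3] at hpos
  simp at hpos

theorem core
    (hv : ∀ l : ℝ, (∫ t in (0 : ℝ)..1, t ^ 2 * Real.exp (l * t)) * (∫ t in (0 : ℝ)..1, Real.exp (l * t))
      - (∫ t in (0 : ℝ)..1, t * Real.exp (l * t)) ^ 2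
      ≤ 1 / 12 * (∫ t in (0 : ℝ)..1, Real.exp (l * t)) ^ 2)
    (hm : ∀ m : ℝ, 0 < m → m < 1 → ∃ l : ℝ,
      (∫ t in (0 : ℝ)..1, t * Real.exp (l * t)) = m * ∫ t in (0 : ℝ)..1, Real.exp (l * t))
    {F : ℝ → ℝ} (h0 : ∀ t, 0 ≤ F t) (hs : ∀ t, F t ≠ 0 → t ∈ Icc (0 : ℝ) 1) (hi : Integrable F)
    (hpos : 0 < ∫ t, F t)
    (hlc : ∀ s t, 0 < F s → 0 < F t → ∀ p : ℝ, 0 < p → p < 1 →
      F s ^ (1 - p) * F t ^ p ≤ F ((1 - p) * s + p * t)) :
    (∫ t, t ^ 2 * F t) * (∫ t, F t) - (∫ t, t * F t) ^ 2 ≤ 1 / 12 * (∫ t, F t) ^ 2 := by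
  have i1 : Integrable (fun t => t * F t) := integrable_mul hs hi (fun t => t) continuous_id
  have i2 : Integrable (fun t => t ^ 2 * F t) :=
    integrable_mul hs hi (fun t => t ^ 2) (continuous_pow 2)
  have i1' : Integrable (fun t => (1 - t) * F t) :=
    integrable_mul hs hi (fun t => 1 - t) (continuous_const.sub continuous_id)
  have hA1 : 0 < ∫ t, t * F t :=
    weight_pos (x := 0) h0 (fun t ht hx => lt_of_le_of_ne (hs t ht).1 (Ne.symm hx))
      (fun t ht => (hs t ht).1) i1 hpos
  have hA1' : 0 < ∫ t, (1 - t) * F t :=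
    weight_pos (x := 1) h0 (fun t ht hx => sub_pos.2 (lt_of_le_of_ne (hs t ht).2 hx))
      (fun t ht => sub_nonneg.2 (hs t ht).2) i1' hpos
  have hsub : (∫ t, (1 - t) * F t) = (∫ t, F t) - ∫ t, t * F t := by
    rw [← integral_sub hi i1]
    exact integral_congr_ae (Filter.Eventually.of_forall fun t => by simp only; ring)
  rw [hsub] at hA1'
  set A0 := ∫ t, F t with hA0
  set A1 := ∫ t, t * F t with hA1d
  set A2 := ∫ t, t ^ 2 * F t with hA2
  obtain ⟨l, hl⟩ := hm (A1 / A0) (div_pos hA1 hpos) ((div_lt_one hpos).2 (by linarith))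
  have hvl := hv l
  have hE0 : 0 < ∫ t in (0 : ℝ)..1, Real.exp (l * t) := by
    refine intervalIntegral.intervalIntegral_pos_of_pos ?_ (fun t => Real.exp_pos _) zero_lt_one
    exact (by fun_prop : Continuous fun t : ℝ => Real.exp (l * t)).intervalIntegrable _ _
  set E0 := ∫ t in (0 : ℝ)..1, Real.exp (l * t) with hE0d
  set E1 := ∫ t in (0 : ℝ)..1, t * Real.exp (l * t) with hE1d
  set E2 := ∫ t in (0 : ℝ)..1, t ^ 2 * Real.exp (l * t) with hE2d
  set c := A0 / E0 with hc
  have hc0 : 0 < c := div_pos hpos hE0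
  have hcE : c * E0 = A0 := by rw [hc]; field_simp
  have hcE1 : c * E1 = A1 := by
    rw [hl, hc]; field_simp
  set g : ℝ → ℝ := (Icc (0 : ℝ) 1).indicator (fun t => c * Real.exp (l * t)) with hg
  have hgs : ∀ t, g t ≠ 0 → t ∈ Icc (0 : ℝ) 1 := fun t ht => by
    by_contra h
    exact ht (indicator_of_notMem h _)
  have hgi : Integrable g := by
    rw [hg, integrable_indicator_iff measurableSet_Icc]
    exact (by fun_prop : Continuous fun t : ℝ => c * Real.exp (l * t)).continuousOn.integrableOn_Icc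
  have j1 : Integrable (fun t => t * g t) := integrable_mul hgs hgi (fun t => t) continuous_id
  have j2 : Integrable (fun t => t ^ 2 * g t) :=
    integrable_mul hgs hgi (fun t => t ^ 2) (continuous_pow 2)
  have hint : ∀ φ : ℝ → ℝ, (∫ t, φ t * g t) = c * ∫ t in (0 : ℝ)..1, φ t * Real.exp (l * t) := by
    intro φ
    rw [← intervalIntegral.integral_const_mul, ← integral_ind]
    refine integral_congr_ae (Filter.Eventually.of_forall fun t => ?_)
    simp only [hg, indicator]
    split_ifs <;> ring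
  have hg0 : (∫ t, g t) = A0 := by
    have := hint (fun _ => 1)
    simp only [one_mul] at this
    rw [this, ← hE0d, hcE]
  have hg1 : (∫ t, t * g t) = A1 := by
    rw [hint (fun t => t), ← hE1d, hcE1]
  have hg2 : (∫ t, t ^ 2 * g t) = c * E2 := hint (fun t => t ^ 2)
  -- crossing points
  have key : ∃ p q : ℝ, ∀ t, (t - p) * (t - q) * (F t - g t) ≤ 0 := by
    set I : Set ℝ := {t | t ∈ Icc (0 : ℝ) 1 ∧ c * Real.exp (l * t) < F t} with hI
    have hgI : ∀ t, t ∈ Icc (0 : ℝ) 1 → g t = c * Real.exp (l * t) := fun t ht =>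
      indicator_of_mem ht _
    have hout : ∀ t, t ∉ Icc (0 : ℝ) 1 → F t = 0 ∧ g t = 0 := fun t ht =>
      ⟨by by_contra h; exact ht (hs t h), indicator_of_notMem ht _⟩
    rcases I.eq_empty_or_nonempty with hIe | hIn
    · refine ⟨0, 0, fun t => ?_⟩
      have h1 : F t ≤ g t := by
        by_cases ht : t ∈ Icc (0 : ℝ) 1
        · rw [hgI t ht]
          by_contra h
          have : t ∈ I := ⟨ht, not_le.1 h⟩
          rw [hIe] at this
          exact this
        · rw [(hout t ht).1, (hout t ht).2]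
      have h2 : 0 ≤ (t - 0) * (t - 0) := mul_self_nonneg _
      exact mul_nonpos_of_nonneg_of_nonpos h2 (by linarith)
    · have hbb : BddBelow I := ⟨0, fun t ht => ht.1.1⟩
      have hba : BddAbove I := ⟨1, fun t ht => ht.1.2⟩
      refine ⟨sInf I, sSup I, fun t => ?_⟩
      by_cases ht : t ∈ Icc (0 : ℝ) 1
      swap
      · rw [(hout t ht).1, (hout t ht).2]; simp
      by_cases htI : t ∈ I
      · have h1 : sInf I ≤ t := csInf_le hbb htI
        have h2 : t ≤ sSup I := le_csSup hba htI
        have h3 : g t < F t := by rw [hgI t ht]; exact htI.2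
        have h4 : (t - sInf I) * (t - sSup I) ≤ 0 :=
          mul_nonpos_of_nonneg_of_nonpos (by linarith) (by linarith)
        exact mul_nonpos_of_nonpos_of_nonneg h4 (by linarith)
      · have h3 : F t ≤ g t := by
          rw [hgI t ht]
          by_contra h
          exact htI ⟨ht, not_le.1 h⟩
        have h4 : 0 ≤ (t - sInf I) * (t - sSup I) := by
          by_contra hneg
          have hneg' := not_le.1 hneg
          have h5 : sInf I < t ∧ t < sSup I := by
            have hle : sInf I ≤ sSup I := csInf_le_csSup hIn hbb hba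
            constructor
            · by_contra h
              have h6 : t ≤ sInf I := not_lt.1 h
              have : 0 ≤ (t - sInf I) * (t - sSup I) :=
                mul_nonneg_of_nonpos_of_nonpos (by linarith) (by linarith)
              linarith
            · by_contra h
              have h6 : sSup I ≤ t := not_lt.1 h
              have : 0 ≤ (t - sInf I) * (t - sSup I) :=
                mul_nonneg (by linarith) (by linarith)
              linarith
          obtain ⟨u, hu, hut⟩ := exists_lt_of_csInf_lt hIn h5.1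
          obtain ⟨v, hv', htv⟩ := exists_lt_of_lt_csSup hIn h5.2
          apply htI
          refine ⟨ht, ?_⟩
          have huv : u < v := hut.trans htv
          set p := (t - u) / (v - u) with hp
          have hp0 : 0 < p := div_pos (by linarith) (by linarith)
          have hp1 : p < 1 := (div_lt_one (by linarith)).2 (by linarith)
          have hpt : (1 - p) * u + p * v = t := by
            have hvu : v - u ≠ 0 := (sub_pos.2 huv).ne'
            have h11 : p * (v - u) = t - u := by rw [hp]; exact div_mul_cancel₀ _ hvu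
            linear_combination h11
          have hgu : 0 < c * Real.exp (l * u) := mul_pos hc0 (Real.exp_pos _)
          have hgv : 0 < c * Real.exp (l * v) := mul_pos hc0 (Real.exp_pos _)
          have h7 := hlc u v (hgu.trans hu.2) (hgv.trans hv'.2) p hp0 hp1
          rw [hpt] at h7
          refine lt_of_lt_of_le ?_ h7
          have h8 : c * Real.exp (l * t) =
              (c * Real.exp (l * u)) ^ (1 - p) * (c * Real.exp (l * v)) ^ p := by
            rw [Real.mul_rpow hc0.le (Real.exp_pos _).le, Real.mul_rpow hc0.le (Real.exp_pos _).le,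
              ← Real.exp_mul, ← Real.exp_mul]
            have h9 : c ^ (1 - p) * Real.exp (l * u * (1 - p)) * (c ^ p * Real.exp (l * v * p)) =
                (c ^ (1 - p) * c ^ p) * (Real.exp (l * u * (1 - p)) * Real.exp (l * v * p)) := by
              ring
            rw [h9, ← Real.rpow_add hc0, ← Real.exp_add]
            have h10 : 1 - p + p = 1 := by ring
            rw [h10, Real.rpow_one]
            congr 2
            rw [← hpt]; ring
          rw [h8]
          exact mul_lt_mul'' (Real.rpow_lt_rpow hgu.le hu.2 (by linarith))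
            (Real.rpow_lt_rpow hgv.le hv'.2 hp0) (Real.rpow_nonneg hgu.le _)
            (Real.rpow_nonneg hgv.le _)
        exact mul_nonpos_of_nonneg_of_nonpos h4 (by linarith)
  obtain ⟨p, q, hpq⟩ := key
  have hle : (∫ t, ((t ^ 2 * F t - t ^ 2 * g t) - (p + q) * (t * F t - t * g t)
      + p * q * (F t - g t))) ≤ 0 := by
    refine integral_nonpos fun t => ?_
    have := hpq t
    simp only [Pi.zero_apply]
    nlinarith [this]
  have hexp : (∫ t, ((t ^ 2 * F t - t ^ 2 * g t) - (p + q) * (t * F t - t * g t)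
      + p * q * (F t - g t))) = (A2 - c * E2) - (p + q) * (A1 - A1) + p * q * (A0 - A0) := by
    have k2 : Integrable (fun t => t ^ 2 * F t - t ^ 2 * g t) := i2.sub j2
    have k1 : Integrable (fun t => (p + q) * (t * F t - t * g t)) := (i1.sub j1).const_mul _
    have k0 : Integrable (fun t => p * q * (F t - g t)) := (hi.sub hgi).const_mul _
    have k21 : Integrable (fun t => (t ^ 2 * F t - t ^ 2 * g t) - (p + q) * (t * F t - t * g t)) :=
      k2.sub k1
    rw [integral_add k21 k0, integral_sub k2 k1, integral_const_mul, integral_const_mul,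
      integral_sub i2 j2, integral_sub i1 j1, integral_sub hi hgi, hg0, hg1, hg2]
  rw [hexp] at hle
  have hA2le : A2 ≤ c * E2 := by linarith
  have h1 : A2 * A0 ≤ (c * E2) * A0 := mul_le_mul_of_nonneg_right hA2le hpos.le
  have h2 : (c * E2) * A0 - A1 ^ 2 = c ^ 2 * (E2 * E0 - E1 ^ 2) := by
    rw [← hcE, ← hcE1]; ring
  have h3 : c ^ 2 * (E2 * E0 - E1 ^ 2) ≤ c ^ 2 * (1 / 12 * E0 ^ 2) :=
    mul_le_mul_of_nonneg_left hvl (sq_nonneg c)
  have h4 : c ^ 2 * (1 / 12 * E0 ^ 2) = 1 / 12 * A0 ^ 2 := by rw [← hcE]; ring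
  linarith

/-- C1, with the two facts on exponentials as hypotheses -/
theorem lc_var_of
    (hv : ∀ l : ℝ, (∫ t in (0 : ℝ)..1, t ^ 2 * Real.exp (l * t)) * (∫ t in (0 : ℝ)..1, Real.exp (l * t))
      - (∫ t in (0 : ℝ)..1, t * Real.exp (l * t)) ^ 2
      ≤ 1 / 12 * (∫ t in (0 : ℝ)..1, Real.exp (l * t)) ^ 2)
    (hm : ∀ m : ℝ, 0 < m → m < 1 → ∃ l : ℝ,
      (∫ t in (0 : ℝ)..1, t * Real.exp (l * t)) = m * ∫ t in (0 : ℝ)..1, Real.exp (l * t))
    {f : ℝ → ℝ} {a b : ℝ} (hab : a < b) (h0 : ∀ t, 0 ≤ f t)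
    (hs : ∀ t, f t ≠ 0 → a ≤ t ∧ t ≤ b) (hi : Integrable f)
    (hpos : 0 < ∫ t, f t)
    (hlc : ∀ s t, 0 < f s → 0 < f t → ∀ p : ℝ, 0 < p → p < 1 →
      f s ^ (1 - p) * f t ^ p ≤ f ((1 - p) * s + p * t)) :
    (∫ t, t ^ 2 * f t) * (∫ t, f t) - (∫ t, t * f t) ^ 2
      ≤ (b - a) ^ 2 / 12 * (∫ t, f t) ^ 2 := by
  set L := b - a with hL
  have hL0 : 0 < L := sub_pos.2 hab
  have hsc : ∀ G : ℝ → ℝ, (∫ u, G (a + L * u)) = L⁻¹ * ∫ t, G t := by
    intro G
    have h1 := Measure.integral_comp_mul_left (fun t => G (a + t)) L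
    rw [h1, abs_of_pos (inv_pos.2 hL0), smul_eq_mul, integral_add_left_eq_self (fun t => G t) a]
  have i1 : Integrable (fun t => t * f t) := integrable_mul hs hi (fun t => t) continuous_id
  have i2 : Integrable (fun t => t ^ 2 * f t) :=
    integrable_mul hs hi (fun t => t ^ 2) (continuous_pow 2)
  have hFi : Integrable (fun u => f (a + L * u)) := by
    have h1 : Integrable (fun t => f (a + t)) := hi.comp_add_left a
    exact h1.comp_mul_left' hL0.ne'
  have e0 : (∫ u, f (a + L * u)) = L⁻¹ * ∫ t, f t := hsc f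
  have e1 : (∫ u, u * f (a + L * u)) = L⁻¹ * (L⁻¹ * ((∫ t, t * f t) - a * ∫ t, f t)) := by
    have h1 := hsc (fun t => L⁻¹ * (t * f t - a * f t))
    have h2 : (∫ t, L⁻¹ * (t * f t - a * f t)) = L⁻¹ * ((∫ t, t * f t) - a * ∫ t, f t) := by
      rw [integral_const_mul, integral_sub i1 (hi.const_mul a), integral_const_mul]
    rw [← h2, ← h1]
    refine integral_congr_ae (Filter.Eventually.of_forall fun u => ?_)
    simp only
    field_simp
    ring
  have e2 : (∫ u, u ^ 2 * f (a + L * u)) = L⁻¹ * (L⁻¹ ^ 2 * ((∫ t, t ^ 2 * f t)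
      - 2 * a * (∫ t, t * f t) + a ^ 2 * ∫ t, f t)) := by
    have h1 := hsc (fun t => L⁻¹ ^ 2 * (t ^ 2 * f t - 2 * a * (t * f t) + a ^ 2 * f t))
    have k1 : Integrable (fun t => 2 * a * (t * f t)) := i1.const_mul _
    have k0 : Integrable (fun t => a ^ 2 * f t) := hi.const_mul _
    have k2 : Integrable (fun t => t ^ 2 * f t - 2 * a * (t * f t)) := i2.sub k1
    have h2 : (∫ t, L⁻¹ ^ 2 * (t ^ 2 * f t - 2 * a * (t * f t) + a ^ 2 * f t)) =
        L⁻¹ ^ 2 * ((∫ t, t ^ 2 * f t) - 2 * a * (∫ t, t * f t) + a ^ 2 * ∫ t, f t) := by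
      rw [integral_const_mul, integral_add k2 k0, integral_sub i2 k1, integral_const_mul,
        integral_const_mul]
    rw [← h2, ← h1]
    refine integral_congr_ae (Filter.Eventually.of_forall fun u => ?_)
    simp only
    field_simp
    ring
  have hc := core hv hm (F := fun u => f (a + L * u)) (fun u => h0 _) (fun u hu => by
      have := hs _ hu
      constructor
      · have h1 : 0 ≤ L * u := by linarith
        exact nonneg_of_mul_nonneg_right h1 hL0
      · have h1 : L * u ≤ L * 1 := by rw [hL] at *; linarith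
        exact le_of_mul_le_mul_left h1 hL0) hFi (by rw [e0]; positivity)
      (fun s t h1 h2 p hp0 hp1 => by
        have := hlc _ _ h1 h2 p hp0 hp1
        have h3 : a + L * ((1 - p) * s + p * t) = (1 - p) * (a + L * s) + p * (a + L * t) := by ring
        simp only [h3]
        exact this)
  rw [e0, e1, e2] at hc
  set M0 := ∫ t, f t
  set M1 := ∫ t, t * f t
  set M2 := ∫ t, t ^ 2 * f t
  have h5 : L⁻¹ * (L⁻¹ ^ 2 * (M2 - 2 * a * M1 + a ^ 2 * M0)) * (L⁻¹ * M0)
      - (L⁻¹ * (L⁻¹ * (M1 - a * M0))) ^ 2 = (M2 * M0 - M1 ^ 2) / L ^ 4 := by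
    field_simp
    ring
  have h6 : 1 / 12 * (L⁻¹ * M0) ^ 2 = (L ^ 2 / 12 * M0 ^ 2) / L ^ 4 := by
    field_simp
  rw [h5, h6] at hc
  exact (div_le_div_iff_of_pos_right (pow_pos hL0 4)).1 hc

end CrossH

end Vale.Agent.P254.Par
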