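import Mathlib

/-! P254, Par, C0b: every mean in `(0,1)` is the mean of a truncated exponential. -/

open MeasureTheory Set

namespace Vale.Agent.P254.Par

/-- closed form -/
theorem ebh_form {m l : ℝ} (hl : l ≠ 0) :
    (∫ t in (0 : ℝ)..1, (t - m) * Real.exp (l * t))
      = Real.exp l * ((1 - m) / l - 1 / l ^ 2) + m / l + 1 / l ^ 2 := by
  have hd : ∀ t ∈ uIcc (0 : ℝ) 1, HasDerivAt
      (fun t : ℝ => Real.exp (l * t) * ((t - m) / l - 1 / l ^ 2)) ((t - m) * Real.exp (l * t)) t := by
    intro t _
    have h1 : HasDerivAt (fun t : ℝ => Real.exp (l * t)) (Real.exp (l * t) * l) t := by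
      have h := ((hasDerivAt_id t).const_mul l).exp
      simpa using h
    have h2 : HasDerivAt (fun t : ℝ => (t - m) / l - 1 / l ^ 2) (1 / l) t := by
      have h := (((hasDerivAt_id t).sub_const m).div_const l).sub_const (1 / l ^ 2)
      simpa using h
    have h3 := h1.mul h2
    have e : (t - m) * Real.exp (l * t)
        = Real.exp (l * t) * l * ((t - m) / l - 1 / l ^ 2) + Real.exp (l * t) * (1 / l) := by
      field_simp
      ring
    rw [e]
    exact h3
  rw [intervalIntegral.integral_eq_sub_of_hasDerivAt hd (by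
    apply Continuous.intervalIntegrable
    fun_prop)]
  simp
  field_simp
  ring

/-- C0b: every mean in `(0,1)` is the mean of a truncated exponential. -/
theorem exp_mean {m : ℝ} (h0 : 0 < m) (h1 : m < 1) :
    ∃ l : ℝ, (∫ t in (0 : ℝ)..1, t * Real.exp (l * t)) = m * ∫ t in (0 : ℝ)..1, Real.exp (l * t) := by
  have hc : Continuous fun l : ℝ => ∫ t in (0 : ℝ)..1, (t - m) * Real.exp (l * t) := by
    apply intervalIntegral.continuous_parametric_intervalIntegral_of_continuous'
    fun_prop
  have hpos : 0 < ∫ t in (0 : ℝ)..1, (t - m) * Real.exp (2 / (1 - m) * t) := by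
    have h2 : 0 < 1 - m := by linarith
    have h3 : 2 / (1 - m) ≠ 0 := by positivity
    rw [ebh_form h3]
    have e1 : (1 - m) / (2 / (1 - m)) - 1 / (2 / (1 - m)) ^ 2 = (1 - m) ^ 2 / 4 := by
      field_simp
      ring
    rw [e1]
    positivity
  have hneg : (∫ t in (0 : ℝ)..1, (t - m) * Real.exp (-2 / m * t)) < 0 := by
    have h3 : -2 / m ≠ 0 := by
      rw [neg_div]
      exact neg_ne_zero.2 (by positivity)
    rw [ebh_form h3]
    have e1 : (1 - m) / (-2 / m) - 1 / (-2 / m) ^ 2 = -(m * (1 - m) / 2 + m ^ 2 / 4) := by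
      field_simp
      ring
    have e2 : m / (-2 / m) + 1 / (-2 / m) ^ 2 = -(m ^ 2 / 4) := by
      field_simp
      ring
    rw [e1, add_assoc, e2]
    have h4 : 0 < Real.exp (-2 / m) * (m * (1 - m) / 2 + m ^ 2 / 4) := by
      have h5 : 0 < 1 - m := by linarith
      positivity
    have h6 : 0 < m ^ 2 / 4 := by positivity
    nlinarith
  obtain ⟨l, hl⟩ := mem_range_of_exists_le_of_exists_ge hc ⟨_, hneg.le⟩ ⟨_, hpos.le⟩
  refine ⟨l, ?_⟩
  have hl' : (∫ t in (0 : ℝ)..1, (t - m) * Real.exp (l * t)) = 0 := hl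
  have e : (∫ t in (0 : ℝ)..1, (t - m) * Real.exp (l * t))
      = (∫ t in (0 : ℝ)..1, t * Real.exp (l * t)) - m * ∫ t in (0 : ℝ)..1, Real.exp (l * t) := by
    rw [← intervalIntegral.integral_const_mul, ← intervalIntegral.integral_sub]
    · refine intervalIntegral.integral_congr fun t _ => ?_
      ring
    · apply Continuous.intervalIntegrable
      fun_prop
    · apply Continuous.intervalIntegrable
      fun_prop
  rw [e] at hl'
  linarith

end Vale.Agent.P254.Par
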