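import Vale.Agent.P254.Par.ExpA
import Vale.Agent.P254.Par.ExpB
import Vale.Agent.P254.Par.CrossH

/-! P254, bodies inside a parallelepiped: variance of a log-concave density on an interval. -/

open MeasureTheory Set

namespace Vale.Agent.P254.Par

theorem lc_var {f : ℝ → ℝ} {a b : ℝ} (hab : a < b) (h0 : ∀ t, 0 ≤ f t)
    (hs : ∀ t, f t ≠ 0 → a ≤ t ∧ t ≤ b) (_hm : Measurable f) (hi : Integrable f)
    (hpos : 0 < ∫ t, f t)
    (hlc : ∀ s t, 0 < f s → 0 < f t → ∀ p : ℝ, 0 < p → p < 1 →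
      f s ^ (1 - p) * f t ^ p ≤ f ((1 - p) * s + p * t)) :
    (∫ t, t ^ 2 * f t) * (∫ t, f t) - (∫ t, t * f t) ^ 2
      ≤ (b - a) ^ 2 / 12 * (∫ t, f t) ^ 2 :=
  CrossH.lc_var_of exp_var (fun _ h0 h1 => exp_mean h0 h1) hab h0 hs hi hpos hlc

end Vale.Agent.P254.Par
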