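import Vale.Agent.P254.Defs
import Vale.Agent.P254.Unc.PL

/-!
P254, bodies inside a parallelepiped, leaf C2: the marginal density of a convex body is log-concave.
-/

open MeasureTheory Set
open scoped ENNReal

namespace Vale.Agent.P254.Par

/-- The section of `K` by `x i = t`. -/
def margSec {m : ℕ} (K : Set (Fin (m + 1) → ℝ)) (i : Fin (m + 1)) (t : ℝ) : Set (Fin m → ℝ) :=
  {y | i.insertNth (α := fun _ => ℝ) t y ∈ K}

lemma margSec_vol_lt {m : ℕ} {K : Set (Fin (m + 1) → ℝ)} (hK : IsCompact K) (i : Fin (m + 1))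
    (t : ℝ) : volume (margSec K i t) < ∞ := by
  have hc : Continuous fun (x : Fin (m + 1) → ℝ) (k : Fin m) => x (i.succAbove k) := by fun_prop
  refine lt_of_le_of_lt (measure_mono ?_) (hK.image hc).measure_lt_top
  intro y hy
  refine ⟨_, hy, ?_⟩
  funext k
  simp

theorem marg_succ {m : ℕ} {K : Set (Fin (m + 1) → ℝ)} (hKc : IsCompact K) (hKv : Convex ℝ K)
    (i : Fin (m + 1)) :
    ∃ f : ℝ → ℝ, (∀ t, 0 ≤ f t) ∧ Measurable f ∧ Integrable f ∧
      (∀ t, f t ≠ 0 → ∃ x ∈ K, x i = t) ∧
      (∀ s t, 0 < f s → 0 < f t → ∀ p : ℝ, 0 < p → p < 1 →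
        f s ^ (1 - p) * f t ^ p ≤ f ((1 - p) * s + p * t)) ∧
      ∀ φ : ℝ → ℝ, Continuous φ → ∫ x in K, φ (x i) = ∫ t, φ t * f t := by
  set e := MeasurableEquiv.piFinSuccAbove (fun _ : Fin (m + 1) => ℝ) i with he
  have hvp : MeasurePreserving e volume volume :=
    volume_preserving_piFinSuccAbove (fun _ : Fin (m + 1) => ℝ) i
  have hes : ∀ (t : ℝ) (y : Fin m → ℝ), e.symm (t, y) = i.insertNth (α := fun _ => ℝ) t y :=
    fun t y => rfl
  have hKm : MeasurableSet K := hKc.measurableSet
  have hEm : MeasurableSet (e.symm ⁻¹' K) := e.symm.measurable hKm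
  have hsec : ∀ t, Prod.mk t ⁻¹' (e.symm ⁻¹' K) = margSec K i t := fun t => rfl
  have hSm : ∀ t, MeasurableSet (margSec K i t) := fun t => by
    rw [← hsec]
    exact measurable_prodMk_left hEm
  have hmeas : Measurable fun t => volume (margSec K i t) := by
    have := measurable_measure_prodMk_left (ν := (volume : Measure (Fin m → ℝ))) hEm
    exact this
  have htot : ∫⁻ t, volume (margSec K i t) = volume K := by
    have h1 : volume K = volume (e.symm ⁻¹' K) :=
      (hvp.symm.measure_preimage hKm.nullMeasurableSet).symm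
    rw [h1]
    exact (Measure.prod_apply hEm).symm
  refine ⟨fun t => (volume (margSec K i t)).toReal, fun t => ENNReal.toReal_nonneg,
    hmeas.ennreal_toReal, ?_, ?_, ?_, ?_⟩
  · refine integrable_toReal_of_lintegral_ne_top hmeas.aemeasurable ?_
    rw [htot]
    exact hKc.measure_lt_top.ne
  · intro t ht
    have : (margSec K i t).Nonempty := by
      rw [nonempty_iff_ne_empty]
      rintro h
      exact ht (by simp [h])
    obtain ⟨y, hy⟩ := this
    exact ⟨_, hy, by simp⟩
  · intro s t _ _ p hp0 hp1
    have hb := Unc.bm_mul (s := 1 - p) (t := p) (by linarith) hp0 (by ring) (hSm s) (hSm t)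
      (hSm ((1 - p) * s + p * t)) (by
        intro a ha b hb
        have h1 : (1 - p) • i.insertNth (α := fun _ => ℝ) s a +
            p • i.insertNth (α := fun _ => ℝ) t b ∈ K :=
          hKv ha hb (by linarith) hp0.le (by ring)
        have h2 : (1 - p) • i.insertNth (α := fun _ => ℝ) s a +
            p • i.insertNth (α := fun _ => ℝ) t b =
            i.insertNth (α := fun _ => ℝ) ((1 - p) * s + p * t) ((1 - p) • a + p • b) := by
          funext j
          refine i.succAboveCases ?_ (fun k => ?_) j
          · simp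
          · simp
        show i.insertNth (α := fun _ => ℝ) ((1 - p) * s + p * t) ((1 - p) • a + p • b) ∈ K
        rw [← h2]
        exact h1)
    have h3 := ENNReal.toReal_mono (margSec_vol_lt hKc i _).ne hb
    rwa [ENNReal.toReal_mul, ← ENNReal.toReal_rpow, ← ENNReal.toReal_rpow] at h3
  · intro φ hφ
    have hg : Continuous fun x : Fin (m + 1) → ℝ => φ (x i) := hφ.comp (continuous_apply i)
    have hint : Integrable (K.indicator fun x => φ (x i)) volume :=
      (hg.continuousOn.integrableOn_compact hKc).integrable_indicator hKm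
    rw [← integral_indicator hKm]
    have h1 := hvp.symm.integral_comp' (g := K.indicator fun x => φ (x i))
    rw [← h1]
    have hint2 : Integrable (fun q : ℝ × (Fin m → ℝ) => K.indicator (fun x => φ (x i)) (e.symm q))
        (volume.prod volume) :=
      (hvp.symm.integrable_comp_emb (MeasurableEquiv.measurableEmbedding _)).2 hint
    change ∫ q : ℝ × (Fin m → ℝ), K.indicator (fun x => φ (x i)) (e.symm q)
      ∂(volume.prod volume) = _
    rw [integral_prod _ hint2]
    refine integral_congr_ae (Filter.Eventually.of_forall fun t => ?_)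
    simp only
    have e2 : ∀ y : Fin m → ℝ, K.indicator (fun x => φ (x i)) (e.symm (t, y)) =
        (margSec K i t).indicator (fun _ => φ t) y := by
      intro y
      rw [hes]
      by_cases h : i.insertNth (α := fun _ => ℝ) t y ∈ K
      · rw [indicator_of_mem h, indicator_of_mem (show y ∈ margSec K i t from h)]
        simp
      · rw [indicator_of_notMem h, indicator_of_notMem (show y ∉ margSec K i t from h)]
    simp_rw [e2]
    rw [integral_indicator (hSm t), setIntegral_const, smul_eq_mul, mul_comm]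
    rfl

/-- C2: the marginal density of a convex body is log-concave. -/
theorem marg {n : ℕ} {K : Set (Fin n → ℝ)} (hK : IsConvexBody K) (i : Fin n) :
    ∃ f : ℝ → ℝ, (∀ t, 0 ≤ f t) ∧ Measurable f ∧ Integrable f ∧
      (∀ t, f t ≠ 0 → ∃ x ∈ K, x i = t) ∧
      (∀ s t, 0 < f s → 0 < f t → ∀ p : ℝ, 0 < p → p < 1 →
        f s ^ (1 - p) * f t ^ p ≤ f ((1 - p) * s + p * t)) ∧
      ∀ φ : ℝ → ℝ, Continuous φ → ∫ x in K, φ (x i) = ∫ t, φ t * f t := by
  cases n with
  | zero => exact i.elim0
  | succ m => exact marg_succ hK.2.1 hK.1 i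

end Vale.Agent.P254.Par
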