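import Vale.Agent.P254.Unc.Stab2
import Vale.Agent.P254.Par.Cross
import Vale.Agent.P254.Par.Marg

/-!
P254: convex bodies inside a parallelepiped.
-/

open MeasureTheory Set Matrix

namespace Vale.Agent.P254.Par

theorem par_var {n : ℕ} {K : Set (Fin n → ℝ)} (hK : IsConvexBody K) (i : Fin n) {a b : ℝ}
    (h : ∀ x ∈ K, a ≤ x i ∧ x i ≤ b) : covMatrix K i i ≤ (b - a) ^ 2 / 12 := by
  have hV := volume_pos_of_body hK
  have hab : a < b := by
    obtain ⟨x, hx⟩ := hK.2.2
    obtain ⟨r, hr, hball⟩ := Metric.isOpen_iff.mp isOpen_interior x hx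
    have hmem : ∀ s : ℝ, |s| < r → Function.update x i (x i + s) ∈ K := by
      intro s hs
      refine interior_subset (hball ?_)
      rw [Metric.mem_ball, dist_pi_lt_iff hr]
      intro j
      by_cases hj : j = i
      · subst hj
        simp [hs]
      · simp [Function.update_of_ne hj, hr]
    have h1 := h _ (hmem (r / 2) (by rw [abs_of_pos (by linarith)]; linarith))
    have h2 := h _ (hmem (-(r / 2)) (by rw [abs_neg, abs_of_pos (by linarith)]; linarith))
    simp only [Function.update_self] at h1 h2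
    linarith [h1.2, h2.1]
  obtain ⟨f, h0, hm, hi, hs, hlc, hφ⟩ := marg hK i
  have e0 : (volume K).toReal = ∫ t, f t := by
    have := hφ (fun _ => 1) continuous_const
    simpa [Measure.real] using this
  have e1 : ∫ x in K, x i = ∫ t, t * f t := hφ (fun t => t) continuous_id
  have e2 : ∫ x in K, x i * x i = ∫ t, t ^ 2 * f t := by
    have := hφ (fun t => t * t) (continuous_id.mul continuous_id)
    rw [this]
    exact integral_congr_ae (Filter.Eventually.of_forall fun t => by ring)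
  have hsup : ∀ t, f t ≠ 0 → a ≤ t ∧ t ≤ b := by
    intro t ht
    obtain ⟨x, hx, rfl⟩ := hs t ht
    exact h x hx
  have key := lc_var hab h0 hsup hm hi (e0 ▸ hV) hlc
  rw [← e0, ← e1, ← e2] at key
  rw [cov_eq hK.2.1 hV.ne']
  simp only [centroid]
  have hV2 : 0 < (volume K).toReal ^ 2 := by positivity
  rw [← mul_le_mul_iff_of_pos_right hV2]
  refine le_trans (le_of_eq ?_) key
  field_simp

theorem par_det {n : ℕ} (hn : 0 < n) {K : Set (Fin n → ℝ)} (hK : IsConvexBody K)
    (h : K ⊆ Icc 0 1) : (12 : ℝ) ^ n * (covMatrix K).det ≤ 1 := by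
  have hn0 : (0 : ℝ) < n := by exact_mod_cast hn
  have hpsd := covMatrix_posSemidef hK.2.1
  have h1 := det_le_trace_pow hn hpsd
  have h2 : (covMatrix K).trace ≤ n * (1 / 12) := by
    simp only [trace, diag_apply]
    refine (Finset.sum_le_sum (g := fun _ => (1 : ℝ) / 12) fun i _ => ?_).trans ?_
    · have := par_var hK i (a := 0) (b := 1) fun x hx => ⟨(h hx).1 i, (h hx).2 i⟩
      simpa using this
    · simp
  have h3 : 0 ≤ (covMatrix K).trace := hpsd.trace_nonneg
  have h4 : (covMatrix K).trace / n ≤ 1 / 12 := by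
    rw [div_le_iff₀ hn0]; linarith
  have h5 := h1.trans (pow_le_pow_left₀ (div_nonneg h3 hn0.le) h4 n)
  calc (12 : ℝ) ^ n * (covMatrix K).det ≤ 12 ^ n * (1 / 12) ^ n :=
        mul_le_mul_of_nonneg_left h5 (by positivity)
    _ = 1 := by rw [← mul_pow]; norm_num

theorem par_lt {n : ℕ} (hn : 1 ≤ n) {K S : Set (Fin n → ℝ)} (hK : IsConvexBody K)
    (hS : IsSimplex S) {A : Matrix (Fin n) (Fin n) ℝ} (hA : A.det ≠ 0) (b : Fin n → ℝ)
    (hKQ : K ⊆ aff A b '' Icc 0 1)
    (hvol : ((n : ℝ) + 1) ^ (n + 1) * ((n : ℝ) + 2) ^ n *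
      (volume (aff A b '' Icc 0 1)).toReal ^ 2 <
      12 ^ n * (n.factorial : ℝ) ^ 2 * (volume K).toReal ^ 2) :
    isoConst K < isoConst S := by
  have hn0 : (0 : ℝ) < n := by exact_mod_cast hn
  have hu : IsUnit A.det := isUnit_iff_ne_zero.2 hA
  have hdi : (A⁻¹).det ≠ 0 := by
    rw [det_nonsing_inv, Ring.inverse_eq_inv']
    exact inv_ne_zero hA
  set K' : Set (Fin n → ℝ) := aff A⁻¹ (-(A⁻¹ *ᵥ b)) '' K with hK'
  have hcomp : ∀ x, aff A b (aff A⁻¹ (-(A⁻¹ *ᵥ b)) x) = x := by
    intro x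
    simp only [aff, mulVec_add, mulVec_neg, mulVec_mulVec, mul_nonsing_inv _ hu, one_mulVec]
    simp
  have hcomp' : ∀ x, aff A⁻¹ (-(A⁻¹ *ᵥ b)) (aff A b x) = x := by
    intro x
    simp only [aff, mulVec_add, mulVec_mulVec, nonsing_inv_mul _ hu, one_mulVec]
    simp
  have hKK : K = aff A b '' K' := by
    rw [hK', image_image]
    simp only [hcomp, image_id']
  have hKb : IsConvexBody K' := isConvexBody_aff_image hdi _ hK
  have hsub : K' ⊆ Icc 0 1 := by
    rintro y ⟨x, hx, rfl⟩
    obtain ⟨z, hz, rfl⟩ := hKQ hx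
    rw [hcomp']
    exact hz
  have h1 := par_det (by omega) hKb hsub
  have hV' := volume_pos_of_body hKb
  have hiso : isoConst K = isoConst K' := by
    rw [hKK]
    exact isoConst_aff_image hA b hKb.2.1 hV'.ne'
  have hvK : (volume K).toReal = |A.det| * (volume K').toReal := by
    rw [hKK]
    exact volume_aff_image hA b hKb.2.1.measurableSet
  have hvQ : (volume (aff A b '' Icc 0 1)).toReal = |A.det| := by
    rw [volume_aff_image hA b measurableSet_Icc]
    simp [Real.volume_Icc_pi]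
  rw [hvK, hvQ] at hvol
  have hdp : 0 < |A.det| ^ 2 := by positivity
  have h2 : (((n : ℝ) + 1) ^ (n + 1) * ((n : ℝ) + 2) ^ n) * |A.det| ^ 2 <
      (12 ^ n * (n.factorial : ℝ) ^ 2 * (volume K').toReal ^ 2) * |A.det| ^ 2 := by
    calc _ < _ := hvol
      _ = _ := by ring
  have h3 := lt_of_mul_lt_mul_right h2 hdp.le
  have hc0 : 0 ≤ (covMatrix K').det := (covMatrix_posSemidef hKb.2.1).det_nonneg
  have h4 : (covMatrix K').det / (volume K').toReal ^ 2 < FV.simpC n := by
    unfold FV.simpC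
    rw [div_lt_div_iff₀ (by positivity) (by positivity)]
    have e : ((n : ℝ) + 1) * (((n : ℝ) + 1) * ((n : ℝ) + 2)) ^ n
        = ((n : ℝ) + 1) ^ (n + 1) * ((n : ℝ) + 2) ^ n := by
      rw [mul_pow]; ring
    rw [e]
    rcases hc0.eq_or_lt with hc | hc
    · rw [← hc, zero_mul]
      positivity
    · calc (covMatrix K').det * (((n : ℝ) + 1) ^ (n + 1) * ((n : ℝ) + 2) ^ n)
          < (covMatrix K').det * (12 ^ n * (n.factorial : ℝ) ^ 2 * (volume K').toReal ^ 2) :=
            mul_lt_mul_of_pos_left h3 hc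
        _ = (12 ^ n * (covMatrix K').det) * ((n.factorial : ℝ) ^ 2 * (volume K').toReal ^ 2) := by
            ring
        _ ≤ 1 * ((n.factorial : ℝ) ^ 2 * (volume K').toReal ^ 2) :=
            mul_le_mul_of_nonneg_right h1 (by positivity)
        _ = _ := one_mul _
  rw [hiso, isoConst_simplex hS, isoConst, isoConst, FV.det_simplex (by omega)]
  exact Real.rpow_lt_rpow (div_nonneg hc0 (by positivity)) h4 (by positivity)

end Vale.Agent.P254.Par
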