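import Mathlib

/-! P254, bodies inside a parallelepiped, C0a: the variance of a truncated exponential is at most
`1/12`. -/

open MeasureTheory Set

namespace Vale.Agent.P254.Par

/-- `sinh z ≤ z cosh z` for `z ≥ 0`. -/
theorem sinh_le_mul_cosh {z : ℝ} (hz : 0 ≤ z) : Real.sinh z ≤ z * Real.cosh z := by
  have hmono : MonotoneOn (fun z : ℝ => z * Real.cosh z - Real.sinh z) (Ici 0) := by
    apply monotoneOn_of_deriv_nonneg (convex_Ici 0)
    · fun_prop
    · exact fun x _ => (((hasDerivAt_id x).mul (Real.hasDerivAt_cosh x)).sub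
        (Real.hasDerivAt_sinh x)).differentiableAt.differentiableWithinAt
    · intro x hx
      rw [interior_Ici] at hx
      have h : HasDerivAt (fun z : ℝ => z * Real.cosh z - Real.sinh z)
          (1 * Real.cosh x + x * Real.sinh x - Real.cosh x) x :=
        ((hasDerivAt_id x).mul (Real.hasDerivAt_cosh x)).sub (Real.hasDerivAt_sinh x)
      rw [h.deriv]
      have : 0 ≤ x * Real.sinh x := mul_nonneg (le_of_lt hx) (Real.sinh_nonneg_iff.2 (le_of_lt hx))
      linarith
  have := hmono (mem_Ici.2 le_rfl) (mem_Ici.2 hz) hz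
  simp at this
  linarith

/-- the key scalar inequality -/
theorem key_nonneg {z : ℝ} (hz : 0 ≤ z) :
    0 ≤ z ^ 2 * (Real.cosh z - 1) - 12 * (Real.cosh z - 1) + 6 * z ^ 2 := by
  have d0 : ∀ x : ℝ, HasDerivAt
      (fun z : ℝ => z ^ 2 * (Real.cosh z - 1) - 12 * (Real.cosh z - 1) + 6 * z ^ 2)
      (2 * x * (Real.cosh x - 1) + x ^ 2 * Real.sinh x - 12 * Real.sinh x + 12 * x) x := by
    intro x
    have hp : HasDerivAt (fun z : ℝ => z ^ 2) (2 * x) x := by simpa using hasDerivAt_pow 2 x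
    have hc : HasDerivAt (fun z : ℝ => Real.cosh z - 1) (Real.sinh x) x :=
      (Real.hasDerivAt_cosh x).sub_const 1
    exact (((hp.mul hc).sub (hc.const_mul 12)).add (hp.const_mul 6)).congr_deriv (by ring)
  have d1 : ∀ x : ℝ, HasDerivAt
      (fun x : ℝ => 2 * x * (Real.cosh x - 1) + x ^ 2 * Real.sinh x - 12 * Real.sinh x + 12 * x)
      (10 - 10 * Real.cosh x + 4 * x * Real.sinh x + x ^ 2 * Real.cosh x) x := by
    intro x
    have hp : HasDerivAt (fun z : ℝ => z ^ 2) (2 * x) x := by simpa using hasDerivAt_pow 2 x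
    have hc : HasDerivAt (fun z : ℝ => Real.cosh z - 1) (Real.sinh x) x :=
      (Real.hasDerivAt_cosh x).sub_const 1
    have hs := Real.hasDerivAt_sinh x
    have hi : HasDerivAt (fun z : ℝ => 2 * z) 2 x := by
      simpa using (hasDerivAt_id x).const_mul (2 : ℝ)
    have hi12 : HasDerivAt (fun z : ℝ => 12 * z) 12 x := by
      simpa using (hasDerivAt_id x).const_mul (12 : ℝ)
    exact ((((hi.mul hc).add (hp.mul hs)).sub (hs.const_mul 12)).add hi12).congr_deriv (by ring)
  have d2 : ∀ x : ℝ, HasDerivAt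
      (fun x : ℝ => 10 - 10 * Real.cosh x + 4 * x * Real.sinh x + x ^ 2 * Real.cosh x)
      (6 * (x * Real.cosh x - Real.sinh x) + x ^ 2 * Real.sinh x) x := by
    intro x
    have hp : HasDerivAt (fun z : ℝ => z ^ 2) (2 * x) x := by simpa using hasDerivAt_pow 2 x
    have hc := Real.hasDerivAt_cosh x
    have hs := Real.hasDerivAt_sinh x
    have hi : HasDerivAt (fun z : ℝ => 4 * z) 4 x := by
      simpa using (hasDerivAt_id x).const_mul (4 : ℝ)
    exact (((hc.const_mul 10).const_sub 10).add (hi.mul hs)).add (hp.mul hc) |>.congr_deriv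
      (by ring)
  have n2 : ∀ x : ℝ, 0 ≤ x →
      0 ≤ 10 - 10 * Real.cosh x + 4 * x * Real.sinh x + x ^ 2 * Real.cosh x := by
    intro x hx
    have hmono : MonotoneOn
        (fun x : ℝ => 10 - 10 * Real.cosh x + 4 * x * Real.sinh x + x ^ 2 * Real.cosh x)
        (Ici 0) := by
      apply monotoneOn_of_deriv_nonneg (convex_Ici 0)
      · exact fun y _ => (d2 y).continuousAt.continuousWithinAt
      · exact fun y _ => (d2 y).differentiableAt.differentiableWithinAt
      · intro y hy
        rw [interior_Ici] at hy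
        rw [(d2 y).deriv]
        have h1 := sinh_le_mul_cosh (le_of_lt hy)
        have h2 : 0 ≤ y ^ 2 * Real.sinh y :=
          mul_nonneg (sq_nonneg y) (Real.sinh_nonneg_iff.2 (le_of_lt hy))
        linarith
    have := hmono (mem_Ici.2 le_rfl) (mem_Ici.2 hx) hx
    simpa using this
  have n1 : ∀ x : ℝ, 0 ≤ x →
      0 ≤ 2 * x * (Real.cosh x - 1) + x ^ 2 * Real.sinh x - 12 * Real.sinh x + 12 * x := by
    intro x hx
    have hmono : MonotoneOn
        (fun x : ℝ => 2 * x * (Real.cosh x - 1) + x ^ 2 * Real.sinh x - 12 * Real.sinh x + 12 * x)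
        (Ici 0) := by
      apply monotoneOn_of_deriv_nonneg (convex_Ici 0)
      · exact fun y _ => (d1 y).continuousAt.continuousWithinAt
      · exact fun y _ => (d1 y).differentiableAt.differentiableWithinAt
      · intro y hy
        rw [interior_Ici] at hy
        rw [(d1 y).deriv]
        exact n2 y (le_of_lt hy)
    have := hmono (mem_Ici.2 le_rfl) (mem_Ici.2 hx) hx
    simpa using this
  have hmono : MonotoneOn
      (fun z : ℝ => z ^ 2 * (Real.cosh z - 1) - 12 * (Real.cosh z - 1) + 6 * z ^ 2) (Ici 0) := by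
    apply monotoneOn_of_deriv_nonneg (convex_Ici 0)
    · exact fun y _ => (d0 y).continuousAt.continuousWithinAt
    · exact fun y _ => (d0 y).differentiableAt.differentiableWithinAt
    · intro y hy
      rw [interior_Ici] at hy
      rw [(d0 y).deriv]
      exact n1 y (le_of_lt hy)
  have := hmono (mem_Ici.2 le_rfl) (mem_Ici.2 hz) hz
  simpa using this

/-- the same for every real `z` -/
theorem key_nonneg' (z : ℝ) :
    0 ≤ z ^ 2 * (Real.cosh z - 1) - 12 * (Real.cosh z - 1) + 6 * z ^ 2 := by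
  have := key_nonneg (abs_nonneg z)
  rwa [Real.cosh_abs, sq_abs] at this

theorem int_exp {l : ℝ} (hl : l ≠ 0) :
    (∫ t in (0 : ℝ)..1, Real.exp (l * t)) = (Real.exp l - 1) / l := by
  have h : ∀ t ∈ uIcc (0 : ℝ) 1, HasDerivAt (fun t : ℝ => Real.exp (l * t) / l)
      (Real.exp (l * t)) t := by
    intro t _
    have h1 : HasDerivAt (fun t : ℝ => l * t) l t := by
      simpa using (hasDerivAt_id t).const_mul l
    exact (h1.exp.div_const l).congr_deriv (by field_simp)
  rw [intervalIntegral.integral_eq_sub_of_hasDerivAt h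
    ((by fun_prop : Continuous fun t : ℝ => Real.exp (l * t)).intervalIntegrable _ _)]
  simp
  ring

theorem int_t_exp {l : ℝ} (hl : l ≠ 0) :
    (∫ t in (0 : ℝ)..1, t * Real.exp (l * t)) = (Real.exp l * (l - 1) + 1) / l ^ 2 := by
  have h : ∀ t ∈ uIcc (0 : ℝ) 1, HasDerivAt
      (fun t : ℝ => (t / l - 1 / l ^ 2) * Real.exp (l * t)) (t * Real.exp (l * t)) t := by
    intro t _
    have h1 : HasDerivAt (fun t : ℝ => l * t) l t := by
      simpa using (hasDerivAt_id t).const_mul l
    have h2 : HasDerivAt (fun t : ℝ => t / l - 1 / l ^ 2) (1 / l) t := by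
      simpa using ((hasDerivAt_id t).div_const l).sub_const (1 / l ^ 2)
    exact (h2.mul h1.exp).congr_deriv (by field_simp; ring)
  rw [intervalIntegral.integral_eq_sub_of_hasDerivAt h
    ((by fun_prop : Continuous fun t : ℝ => t * Real.exp (l * t)).intervalIntegrable _ _)]
  simp
  field_simp

theorem int_sq_exp {l : ℝ} (hl : l ≠ 0) :
    (∫ t in (0 : ℝ)..1, t ^ 2 * Real.exp (l * t)) =
      (Real.exp l * (l ^ 2 - 2 * l + 2) - 2) / l ^ 3 := by
  have h : ∀ t ∈ uIcc (0 : ℝ) 1, HasDerivAt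
      (fun t : ℝ => (t ^ 2 / l - 2 * t / l ^ 2 + 2 / l ^ 3) * Real.exp (l * t))
      (t ^ 2 * Real.exp (l * t)) t := by
    intro t _
    have h1 : HasDerivAt (fun t : ℝ => l * t) l t := by
      simpa using (hasDerivAt_id t).const_mul l
    have hp : HasDerivAt (fun z : ℝ => z ^ 2) (2 * t) t := by simpa using hasDerivAt_pow 2 t
    have hi : HasDerivAt (fun z : ℝ => 2 * z) 2 t := by
      simpa using (hasDerivAt_id t).const_mul (2 : ℝ)
    have h2 : HasDerivAt (fun t : ℝ => t ^ 2 / l - 2 * t / l ^ 2 + 2 / l ^ 3)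
        (2 * t / l - 2 / l ^ 2) t :=
      ((hp.div_const l).sub (hi.div_const (l ^ 2))).add_const (2 / l ^ 3)
    exact (h2.mul h1.exp).congr_deriv (by field_simp; ring)
  rw [intervalIntegral.integral_eq_sub_of_hasDerivAt h
    ((by fun_prop : Continuous fun t : ℝ => t ^ 2 * Real.exp (l * t)).intervalIntegrable _ _)]
  simp
  field_simp

/-- C0a (file ExpA.lean): variance of a truncated exponential. -/
theorem exp_var (l : ℝ) :
    (∫ t in (0 : ℝ)..1, t ^ 2 * Real.exp (l * t)) * (∫ t in (0 : ℝ)..1, Real.exp (l * t))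
      - (∫ t in (0 : ℝ)..1, t * Real.exp (l * t)) ^ 2
      ≤ 1 / 12 * (∫ t in (0 : ℝ)..1, Real.exp (l * t)) ^ 2 := by
  by_cases hl : l = 0
  · subst hl
    norm_num [integral_pow]
  · rw [int_exp hl, int_t_exp hl, int_sq_exp hl]
    have hk := key_nonneg' l
    rw [Real.cosh_eq] at hk
    have he : 0 < Real.exp l := Real.exp_pos l
    have hen : Real.exp (-l) = 1 / Real.exp l := by rw [Real.exp_neg, one_div]
    rw [hen] at hk
    obtain ⟨u, hu⟩ : ∃ u, u = Real.exp l := ⟨_, rfl⟩
    rw [← hu] at hk he ⊢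
    have hl4 : 0 < l ^ 4 := by positivity
    have hk2 : 0 ≤ 12 * l ^ 2 * u - (12 - l ^ 2) * (u - 1) ^ 2 := by
      have h2 : 12 * l ^ 2 * u - (12 - l ^ 2) * (u - 1) ^ 2 =
          2 * u * (l ^ 2 * ((u + 1 / u) / 2 - 1) - 12 * ((u + 1 / u) / 2 - 1) + 6 * l ^ 2) := by
        field_simp
        ring
      rw [h2]
      positivity
    have h3 : 1 / 12 * ((u - 1) / l) ^ 2 -
        ((u * (l ^ 2 - 2 * l + 2) - 2) / l ^ 3 * ((u - 1) / l) - ((u * (l - 1) + 1) / l ^ 2) ^ 2) =
        (12 * l ^ 2 * u - (12 - l ^ 2) * (u - 1) ^ 2) / (12 * l ^ 4) := by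
      field_simp
      ring
    have h4 : 0 ≤ (12 * l ^ 2 * u - (12 - l ^ 2) * (u - 1) ^ 2) / (12 * l ^ 4) := by positivity
    linarith

end Vale.Agent.P254.Par
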