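import Vale.Agent.P254.Unc.Stab2

/-! P254, bodies inside a parallelepiped: PLAN (statements only, never import this file). -/

open MeasureTheory Set Matrix

namespace Vale.Agent.P254.Par

/-- C0a (file ExpA.lean): variance of a truncated exponential. -/
theorem exp_var (l : ℝ) :
    (∫ t in (0 : ℝ)..1, t ^ 2 * Real.exp (l * t)) * (∫ t in (0 : ℝ)..1, Real.exp (l * t))
      - (∫ t in (0 : ℝ)..1, t * Real.exp (l * t)) ^ 2
      ≤ 1 / 12 * (∫ t in (0 : ℝ)..1, Real.exp (l * t)) ^ 2 := by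
  sorry

/-- C0b (file ExpB.lean): every mean in `(0,1)` is the mean of a truncated exponential. -/
theorem exp_mean {m : ℝ} (h0 : 0 < m) (h1 : m < 1) :
    ∃ l : ℝ, (∫ t in (0 : ℝ)..1, t * Real.exp (l * t)) = m * ∫ t in (0 : ℝ)..1, Real.exp (l * t) := by
  sorry

/-- C1 (file Cross.lean, from C0a, C0b): variance of a log-concave density on an interval. -/
theorem lc_var {f : ℝ → ℝ} {a b : ℝ} (hab : a < b) (h0 : ∀ t, 0 ≤ f t)
    (hs : ∀ t, f t ≠ 0 → a ≤ t ∧ t ≤ b) (hm : Measurable f) (hi : Integrable f)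
    (hpos : 0 < ∫ t, f t)
    (hlc : ∀ s t, 0 < f s → 0 < f t → ∀ p : ℝ, 0 < p → p < 1 →
      f s ^ (1 - p) * f t ^ p ≤ f ((1 - p) * s + p * t)) :
    (∫ t, t ^ 2 * f t) * (∫ t, f t) - (∫ t, t * f t) ^ 2
      ≤ (b - a) ^ 2 / 12 * (∫ t, f t) ^ 2 := by
  sorry

/-- C2 (file Marg.lean): the marginal density of a convex body is log-concave. -/
theorem marg {n : ℕ} {K : Set (Fin n → ℝ)} (hK : IsConvexBody K) (i : Fin n) :
    ∃ f : ℝ → ℝ, (∀ t, 0 ≤ f t) ∧ Measurable f ∧ Integrable f ∧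
      (∀ t, f t ≠ 0 → ∃ x ∈ K, x i = t) ∧
      (∀ s t, 0 < f s → 0 < f t → ∀ p : ℝ, 0 < p → p < 1 →
        f s ^ (1 - p) * f t ^ p ≤ f ((1 - p) * s + p * t)) ∧
      ∀ φ : ℝ → ℝ, Continuous φ → ∫ x in K, φ (x i) = ∫ t, φ t * f t := by
  sorry

/-- C3 (file Main.lean, from C1, C2). -/
theorem par_var {n : ℕ} {K : Set (Fin n → ℝ)} (hK : IsConvexBody K) (i : Fin n) {a b : ℝ}
    (h : ∀ x ∈ K, a ≤ x i ∧ x i ≤ b) : covMatrix K i i ≤ (b - a) ^ 2 / 12 := by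
  sorry

theorem par_det {n : ℕ} (hn : 0 < n) {K : Set (Fin n → ℝ)} (hK : IsConvexBody K)
    (h : K ⊆ Icc 0 1) : (12 : ℝ) ^ n * (covMatrix K).det ≤ 1 := by
  sorry

theorem par_lt {n : ℕ} (hn : 1 ≤ n) {K S : Set (Fin n → ℝ)} (hK : IsConvexBody K)
    (hS : IsSimplex S) {A : Matrix (Fin n) (Fin n) ℝ} (hA : A.det ≠ 0) (b : Fin n → ℝ)
    (hKQ : K ⊆ aff A b '' Icc 0 1)
    (hvol : ((n : ℝ) + 1) ^ (n + 1) * ((n : ℝ) + 2) ^ n *
      (volume (aff A b '' Icc 0 1)).toReal ^ 2 <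
      12 ^ n * (n.factorial : ℝ) ^ 2 * (volume K).toReal ^ 2) :
    isoConst K < isoConst S := by
  sorry

end Vale.Agent.P254.Par
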